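import Vale.Agent.P181.WC.Defs

set_option autoImplicit false

/-! [C3]: `ColStmt` from `Cap1Stmt` and `ContrStmt`, by induction on the first row. -/

namespace Vale.Agent.P181.WC.H117

open Finset

theorem colStmt (h1 : Cap1Stmt) (h2 : ContrStmt) : ColStmt := by
  intro P _ _ L
  induction L with
  | zero =>
    intro S μ f hanti hfin h0 hHW hC w
    by_contra hw
    have hS : S = ∅ := by
      rw [Finset.eq_empty_iff_forall_notMem]
      intro x hx
      have h := hHW.2 w hw (w x)
      have hμ : μ (w x) = 0 := Nat.le_zero.mp (h0 ▸ hanti (Nat.zero_le (w x)))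
      rw [hμ, Finset.card_eq_zero] at h
      have hx' : x ∈ S.filter (fun y => w y = w x) := by simp [hx]
      rw [h] at hx'
      simp at hx'
    exact hw (hC [] hS rfl w)
  | succ L ih =>
    intro S μ f hanti hfin h0 hHW hC
    have hex : ∃ N, μ N = 0 := by
      obtain ⟨N, hN⟩ := hfin
      exact ⟨N, hN N le_rfl⟩
    obtain ⟨ℓ, hpos, hzero⟩ : ∃ ℓ : ℕ, (∀ m, m < ℓ → 0 < μ m) ∧ (∀ m, ℓ ≤ m → μ m = 0) := by
      refine ⟨Nat.find hex, fun m hm => Nat.pos_of_ne_zero (Nat.find_min hex hm), fun m hm => ?_⟩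
      have := hanti hm
      rw [Nat.find_spec hex] at this
      exact Nat.le_zero.mp this
    have hℓ0 : 0 < ℓ := by
      rcases Nat.eq_zero_or_pos ℓ with h | h
      · have := hzero 0 (by omega)
        omega
      · exact h
    refine h1 P S μ f hHW ℓ hpos ?_
    intro p hp hpS w
    have hH := h2 P S μ f hHW ℓ hzero p hp hpS
    refine ih (S.filter (fun x => ∀ i, p i ≠ x)) (fun m => μ m - (if m < ℓ then 1 else 0))
      (c1 f ℓ p) ?_ ?_ ?_ hH ?_ w
    · intro m k hmk
      have hmk' := hanti hmk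
      show μ k - (if k < ℓ then 1 else 0) ≤ μ m - (if m < ℓ then 1 else 0)
      by_cases hk : k < ℓ
      · have hm : m < ℓ := lt_of_le_of_lt hmk hk
        simp only [hk, hm, if_true]
        omega
      · have := hzero k (not_lt.mp hk)
        simp only [hk, if_false]
        omega
    · obtain ⟨N, hN⟩ := hfin
      refine ⟨N, fun m hm => ?_⟩
      show μ m - (if m < ℓ then 1 else 0) = 0
      rw [hN m hm, Nat.zero_sub]
    · show μ 0 - (if 0 < ℓ then 1 else 0) = L
      rw [if_pos hℓ0, h0]
      rfl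
    · intro C hG hlen w'
      exact hC (⟨ℓ, p⟩ :: C) ⟨hp, hpS, hG⟩ (by simp [hlen]) w'

end Vale.Agent.P181.WC.H117
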